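import Vale.Agent.P113.Assembly

/-!
P113, Q1: halting detection by particle trajectories of forced Navier-Stokes flows from rest.
-/

namespace Vale.Agent.Results.P113.HaltingDetection

open Vale.Agent.P113

set_option synthInstance.maxSize 2048

/-- For every viscosity the same computable force compiler, start point and box detect halting. -/
theorem result :
    ∃ (astar lo hi : Fin 3 → ℚ) (T0 : ℝ) (C : MachineCode × List ℕ → Force),
      (∀ i, lo i < hi i) ∧ Computable C ∧ DetectsHalting astar lo hi T0 C :=
  mainStatement

end Vale.Agent.Results.P113.HaltingDetection
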